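import Vale.Agent.P042Pow.Core

/-! Amplifying one exact inequality between block parameters to a bound for every `N`. -/

open Finset

namespace Vale.Agent.P042Pow

theorem bound_of_blocks {ι : Type*} [Fintype ι] [DecidableEq ι] [Nonempty ι]
    {r : ℕ} (hr : r ≠ 0) (B : ι → Block r) (L : ι → ℕ) (p q : ℕ) (hq : q ≠ 0)
    (hcop : ∀ i j, i ≠ j → Nat.Coprime (B i).M (B j).M)
    (hbase : 1 < (univ.sup fun i => (B i).H ^ L i) * ∏ i, (B i).M ^ L i)
    (harith : ((univ.sup fun i => (B i).H ^ L i) * ∏ i, (B i).M ^ L i) ^ p ≤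
      (∏ i, (B i).R.card ^ L i) ^ q)
    (e : ℝ) (he0 : 0 < e) (he : e ≤ (p : ℝ) / q) :
    ∃ c : ℝ, 0 < c ∧ ∀ N : ℕ, ∃ A : Finset ℕ, A ⊆ Finset.Icc 1 N ∧
      c * (N : ℝ) ^ e ≤ (A.card : ℝ) ∧
      ∀ a ∈ A, ∀ b ∈ A, ∀ n : ℕ, 1 ≤ n → ((a : ℤ) - (b : ℤ)) ≠ (n : ℤ) ^ r := by
  classical
  have hι : (0 : ℝ) < (Fintype.card ι : ℝ) + 1 := by positivity
  generalize hT0 : (univ.sup fun i => (B i).H ^ L i) = T0 at hbase harith
  generalize hN0 : (∏ i, (B i).M ^ L i) = N0 at hbase harith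
  generalize hG0 : (∏ i, (B i).R.card ^ L i) = G0 at harith
  generalize hW : T0 * N0 = W at hbase harith
  have hWR : (0 : ℝ) < W := by exact_mod_cast (by omega : 0 < W)
  refine ⟨1 / (((Fintype.card ι : ℝ) + 1) * (W : ℝ) ^ ((p : ℝ) / q)), by positivity, fun N => ?_⟩
  rcases Nat.eq_zero_or_pos N with rfl | hN
  · refine ⟨∅, empty_subset _, ?_, by simp⟩
    rw [Nat.cast_zero, Real.zero_rpow he0.ne']
    simp
  set k := Nat.log W N with hk
  have hle : W ^ k ≤ N := Nat.pow_log_le_self _ hN.ne'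
  have hlt : N < W ^ (k + 1) := Nat.lt_pow_succ_log_self hbase N
  obtain ⟨A, hA, hcard, hfree⟩ := exists_large_set hr B (fun i => L i * k) hcop
    (T0 ^ k) (fun i => by
      rw [pow_mul]
      refine Nat.pow_le_pow_left ?_ k
      rw [← hT0]
      exact Finset.le_sup (f := fun i : ι => (B i).H ^ L i) (mem_univ i))
  simp only [pow_mul, Finset.prod_pow, hN0, hG0] at hA hcard
  rw [← mul_pow, hW] at hA
  refine ⟨A.map ⟨fun a => a + 1, add_left_injective 1⟩, ?_, ?_, ?_⟩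
  · intro x hx
    simp only [mem_map, Function.Embedding.coeFn_mk] at hx
    obtain ⟨a, ha, rfl⟩ := hx
    have := mem_range.mp (hA ha)
    rw [mem_Icc]
    omega
  · rw [card_map]
    have h5 : N ^ p ≤ W ^ p * (A.card * (Fintype.card ι + 1)) ^ q := by
      calc N ^ p ≤ (W ^ (k + 1)) ^ p := Nat.pow_le_pow_left hlt.le p
        _ = W ^ p * (W ^ p) ^ k := by ring
        _ ≤ W ^ p * (G0 ^ q) ^ k := Nat.mul_le_mul_left _ (Nat.pow_le_pow_left harith k)
        _ = W ^ p * (G0 ^ k) ^ q := by ring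
        _ ≤ _ := Nat.mul_le_mul_left _ (Nat.pow_le_pow_left hcard q)
    have h6 : ((N : ℝ)) ^ p ≤ (W : ℝ) ^ p * ((A.card : ℝ) * ((Fintype.card ι : ℝ) + 1)) ^ q := by
      exact_mod_cast h5
    have hq' : (q : ℝ) ≠ 0 := by exact_mod_cast hq
    have h7 : (N : ℝ) ^ ((p : ℝ) / q) ≤
        (W : ℝ) ^ ((p : ℝ) / q) * ((A.card : ℝ) * ((Fintype.card ι : ℝ) + 1)) := by
      refine (pow_le_pow_iff_left₀ (by positivity) (by positivity) (n := q) hq).mp ?_
      rw [mul_pow, ← Real.rpow_mul_natCast (by positivity), ← Real.rpow_mul_natCast (by positivity),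
        div_mul_cancel₀ _ hq', Real.rpow_natCast, Real.rpow_natCast]
      exact h6
    have h8 : (N : ℝ) ^ e ≤ (N : ℝ) ^ ((p : ℝ) / q) :=
      Real.rpow_le_rpow_of_exponent_le (by exact_mod_cast hN) he
    rw [div_mul_eq_mul_div, one_mul, div_le_iff₀ (by positivity)]
    linarith
  · intro a ha b hb n hn heq
    simp only [mem_map, Function.Embedding.coeFn_mk] at ha hb
    obtain ⟨a, ha, rfl⟩ := ha
    obtain ⟨b, hb, rfl⟩ := hb
    push_cast at heq
    have hn2 : (1 : ℤ) ≤ (n : ℤ) ^ r := one_le_pow₀ (by exact_mod_cast hn)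
    have hba : b < a := by omega
    refine hfree b hb a ha n hba ?_
    have : (((a - b : ℕ)) : ℤ) = ((n ^ r : ℕ) : ℤ) := by
      rw [Nat.cast_sub hba.le]
      push_cast
      linarith
    exact_mod_cast this

end Vale.Agent.P042Pow
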