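import Vale.Agent.P042Pow.Blocks

/-! Searched residue blocks for even exponents and for exponents divisible by four. -/

namespace Vale.Agent.P042Pow

lemma pow_mod_eight {k : ℕ} (hk : 4 ≤ k) (h2 : 2 ∣ k) :
    ∀ z ∈ List.range 8, z ^ k % 8 ∈ ([0, 1] : List ℕ) := by
  intro z hz
  obtain ⟨j, rfl⟩ := h2
  obtain ⟨i, rfl⟩ : ∃ i, j = i + 2 := ⟨j - 2, by omega⟩
  rw [List.mem_range] at hz
  rw [pow_mul, Nat.pow_mod, pow_add, Nat.mul_mod, Nat.pow_mod]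
  interval_cases z <;> simp

def blockTwo3 (k : ℕ) (h2 : 2 ∣ k) (h4 : 4 ≤ k) : Block k :=
  Block.lift k 3 3 [0, 1] [0, 2]
    (fun x => ([1, 0] : List ℕ).getD (([0, 2] : List ℕ).idxOf x) 0) 2 (by norm_num) (by norm_num) (by norm_num)
    (dvd_pow_self _ (by omega))
    (root_of_squarefree (show Nat.Prime 3 by norm_num).prime.squarefree (by omega))
    (mem_of_dvd (by norm_num) h2 _ (by decide +kernel)) (by decide +kernel) (by decide +kernel)

lemma card_blockTwo3 (k : ℕ) (h2 : 2 ∣ k) (h4 : 4 ≤ k) : (blockTwo3 k h2 h4).R.card * 3 = 2 * 3 ^ k := by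
  unfold blockTwo3
  rw [Block.lift_card, show ([0, 2] : List ℕ).toFinset.card = 2 by decide +kernel]

def blockTwo7 (k : ℕ) (h2 : 2 ∣ k) (h4 : 4 ≤ k) : Block k :=
  Block.lift k 7 7 [0, 1, 2, 4] [1, 0, 4]
    (fun x => ([2, 0, 1] : List ℕ).getD (([1, 0, 4] : List ℕ).idxOf x) 0) 3 (by norm_num) (by norm_num) (by norm_num)
    (dvd_pow_self _ (by omega))
    (root_of_squarefree (show Nat.Prime 7 by norm_num).prime.squarefree (by omega))
    (mem_of_dvd (by norm_num) h2 _ (by decide +kernel)) (by decide +kernel) (by decide +kernel)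

lemma card_blockTwo7 (k : ℕ) (h2 : 2 ∣ k) (h4 : 4 ≤ k) : (blockTwo7 k h2 h4).R.card * 7 = 3 * 7 ^ k := by
  unfold blockTwo7
  rw [Block.lift_card, show ([1, 0, 4] : List ℕ).toFinset.card = 3 by decide +kernel]

def blockTwo11 (k : ℕ) (h2 : 2 ∣ k) (h4 : 4 ≤ k) : Block k :=
  Block.lift k 11 11 [0, 1, 3, 4, 5, 9] [0, 9, 5, 3]
    (fun x => ([0, 2, 1, 3] : List ℕ).getD (([0, 9, 5, 3] : List ℕ).idxOf x) 0) 4 (by norm_num) (by norm_num) (by norm_num)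
    (dvd_pow_self _ (by omega))
    (root_of_squarefree (show Nat.Prime 11 by norm_num).prime.squarefree (by omega))
    (mem_of_dvd (by norm_num) h2 _ (by decide +kernel)) (by decide +kernel) (by decide +kernel)

lemma card_blockTwo11 (k : ℕ) (h2 : 2 ∣ k) (h4 : 4 ≤ k) : (blockTwo11 k h2 h4).R.card * 11 = 4 * 11 ^ k := by
  unfold blockTwo11
  rw [Block.lift_card, show ([0, 9, 5, 3] : List ℕ).toFinset.card = 4 by decide +kernel]

def blockTwo19 (k : ℕ) (h2 : 2 ∣ k) (h4 : 4 ≤ k) : Block k :=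
  Block.lift k 19 19 [0, 1, 4, 5, 6, 7, 9, 11, 16, 17] [2, 4, 9, 8, 13]
    (fun x => ([1, 0, 3, 2, 4] : List ℕ).getD (([2, 4, 9, 8, 13] : List ℕ).idxOf x) 0) 5 (by norm_num) (by norm_num) (by norm_num)
    (dvd_pow_self _ (by omega))
    (root_of_squarefree (show Nat.Prime 19 by norm_num).prime.squarefree (by omega))
    (mem_of_dvd (by norm_num) h2 _ (by decide +kernel)) (by decide +kernel) (by decide +kernel)

lemma card_blockTwo19 (k : ℕ) (h2 : 2 ∣ k) (h4 : 4 ≤ k) : (blockTwo19 k h2 h4).R.card * 19 = 5 * 19 ^ k := by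
  unfold blockTwo19
  rw [Block.lift_card, show ([2, 4, 9, 8, 13] : List ℕ).toFinset.card = 5 by decide +kernel]

def blockTwo31 (k : ℕ) (h2 : 2 ∣ k) (h4 : 4 ≤ k) : Block k :=
  Block.lift k 31 31 [0, 1, 2, 4, 5, 7, 8, 9, 10, 14, 16, 18, 19, 20, 25, 28] [9, 2, 5, 15, 1, 26, 8]
    (fun x => ([6, 5, 3, 4, 0, 2, 1] : List ℕ).getD (([9, 2, 5, 15, 1, 26, 8] : List ℕ).idxOf x) 0) 7 (by norm_num) (by norm_num) (by norm_num)
    (dvd_pow_self _ (by omega))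
    (root_of_squarefree (show Nat.Prime 31 by norm_num).prime.squarefree (by omega))
    (mem_of_dvd (by norm_num) h2 _ (by decide +kernel)) (by decide +kernel) (by decide +kernel)

lemma card_blockTwo31 (k : ℕ) (h2 : 2 ∣ k) (h4 : 4 ≤ k) : (blockTwo31 k h2 h4).R.card * 31 = 7 * 31 ^ k := by
  unfold blockTwo31
  rw [Block.lift_card, show ([9, 2, 5, 15, 1, 26, 8] : List ℕ).toFinset.card = 7 by decide +kernel]

def blockTwo43 (k : ℕ) (h2 : 2 ∣ k) (h4 : 4 ≤ k) : Block k :=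
  Block.lift k 43 43 [0, 1, 4, 6, 9, 10, 11, 13, 14, 15, 16, 17, 21, 23, 24, 25, 31, 35, 36, 38, 40, 41] [32, 1, 37, 26, 28, 16, 41]
    (fun x => ([5, 1, 4, 3, 0, 2, 6] : List ℕ).getD (([32, 1, 37, 26, 28, 16, 41] : List ℕ).idxOf x) 0) 7 (by norm_num) (by norm_num) (by norm_num)
    (dvd_pow_self _ (by omega))
    (root_of_squarefree (show Nat.Prime 43 by norm_num).prime.squarefree (by omega))
    (mem_of_dvd (by norm_num) h2 _ (by decide +kernel)) (by decide +kernel) (by decide +kernel)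

lemma card_blockTwo43 (k : ℕ) (h2 : 2 ∣ k) (h4 : 4 ≤ k) : (blockTwo43 k h2 h4).R.card * 43 = 7 * 43 ^ k := by
  unfold blockTwo43
  rw [Block.lift_card, show ([32, 1, 37, 26, 28, 16, 41] : List ℕ).toFinset.card = 7 by decide +kernel]

def blockTwo47 (k : ℕ) (h2 : 2 ∣ k) (h4 : 4 ≤ k) : Block k :=
  Block.lift k 47 47 [0, 1, 2, 3, 4, 6, 7, 8, 9, 12, 14, 16, 17, 18, 21, 24, 25, 27, 28, 32, 34, 36, 37, 42] [25, 45, 22, 44, 21, 13, 18]
    (fun x => ([6, 4, 5, 0, 3, 2, 1] : List ℕ).getD (([25, 45, 22, 44, 21, 13, 18] : List ℕ).idxOf x) 0) 7 (by norm_num) (by norm_num) (by norm_num)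
    (dvd_pow_self _ (by omega))
    (root_of_squarefree (show Nat.Prime 47 by norm_num).prime.squarefree (by omega))
    (mem_of_dvd (by norm_num) h2 _ (by decide +kernel)) (by decide +kernel) (by decide +kernel)

lemma card_blockTwo47 (k : ℕ) (h2 : 2 ∣ k) (h4 : 4 ≤ k) : (blockTwo47 k h2 h4).R.card * 47 = 7 * 47 ^ k := by
  unfold blockTwo47
  rw [Block.lift_card, show ([25, 45, 22, 44, 21, 13, 18] : List ℕ).toFinset.card = 7 by decide +kernel]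

def blockTwo59 (k : ℕ) (h2 : 2 ∣ k) (h4 : 4 ≤ k) : Block k :=
  Block.lift k 59 59 [0, 1, 3, 4, 5, 7, 9, 12, 15, 16, 17, 19, 20, 21, 22, 25, 26, 27, 28, 29, 35, 36, 41, 45, 46, 48, 49, 51, 53, 57] [48, 56, 9, 33, 1, 43, 32, 0, 19]
    (fun x => ([6, 0, 7, 3, 8, 1, 2, 4, 5] : List ℕ).getD (([48, 56, 9, 33, 1, 43, 32, 0, 19] : List ℕ).idxOf x) 0) 9 (by norm_num) (by norm_num) (by norm_num)
    (dvd_pow_self _ (by omega))
    (root_of_squarefree (show Nat.Prime 59 by norm_num).prime.squarefree (by omega))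
    (mem_of_dvd (by norm_num) h2 _ (by decide +kernel)) (by decide +kernel) (by decide +kernel)

lemma card_blockTwo59 (k : ℕ) (h2 : 2 ∣ k) (h4 : 4 ≤ k) : (blockTwo59 k h2 h4).R.card * 59 = 9 * 59 ^ k := by
  unfold blockTwo59
  rw [Block.lift_card, show ([48, 56, 9, 33, 1, 43, 32, 0, 19] : List ℕ).toFinset.card = 9 by decide +kernel]

def blockTwo71 (k : ℕ) (h2 : 2 ∣ k) (h4 : 4 ≤ k) : Block k :=
  Block.lift k 71 71 [0, 1, 2, 3, 4, 5, 6, 8, 9, 10, 12, 15, 16, 18, 19, 20, 24, 25, 27, 29, 30, 32, 36, 37, 38, 40, 43, 45, 48, 49, 50, 54, 57, 58, 60, 64] [57, 53, 38, 45, 3, 47, 70, 48, 63]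
    (fun x => ([7, 6, 1, 0, 4, 3, 2, 5, 8] : List ℕ).getD (([57, 53, 38, 45, 3, 47, 70, 48, 63] : List ℕ).idxOf x) 0) 9 (by norm_num) (by norm_num) (by norm_num)
    (dvd_pow_self _ (by omega))
    (root_of_squarefree (show Nat.Prime 71 by norm_num).prime.squarefree (by omega))
    (mem_of_dvd (by norm_num) h2 _ (by decide +kernel)) (by decide +kernel) (by decide +kernel)

lemma card_blockTwo71 (k : ℕ) (h2 : 2 ∣ k) (h4 : 4 ≤ k) : (blockTwo71 k h2 h4).R.card * 71 = 9 * 71 ^ k := by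
  unfold blockTwo71
  rw [Block.lift_card, show ([57, 53, 38, 45, 3, 47, 70, 48, 63] : List ℕ).toFinset.card = 9 by decide +kernel]

def blockTwo79 (k : ℕ) (h2 : 2 ∣ k) (h4 : 4 ≤ k) : Block k :=
  Block.lift k 79 79 [0, 1, 2, 4, 5, 8, 9, 10, 11, 13, 16, 18, 19, 20, 21, 22, 23, 25, 26, 31, 32, 36, 38, 40, 42, 44, 45, 46, 49, 50, 51, 52, 55, 62, 64, 65, 67, 72, 73, 76] [0, 47, 15, 17, 77, 40, 70, 54, 24]
    (fun x => ([7, 4, 1, 6, 2, 8, 5, 0, 3] : List ℕ).getD (([0, 47, 15, 17, 77, 40, 70, 54, 24] : List ℕ).idxOf x) 0) 9 (by norm_num) (by norm_num) (by norm_num)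
    (dvd_pow_self _ (by omega))
    (root_of_squarefree (show Nat.Prime 79 by norm_num).prime.squarefree (by omega))
    (mem_of_dvd (by norm_num) h2 _ (by decide +kernel)) (by decide +kernel) (by decide +kernel)

lemma card_blockTwo79 (k : ℕ) (h2 : 2 ∣ k) (h4 : 4 ≤ k) : (blockTwo79 k h2 h4).R.card * 79 = 9 * 79 ^ k := by
  unfold blockTwo79
  rw [Block.lift_card, show ([0, 47, 15, 17, 77, 40, 70, 54, 24] : List ℕ).toFinset.card = 9 by decide +kernel]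

def blockTwo103 (k : ℕ) (h2 : 2 ∣ k) (h4 : 4 ≤ k) : Block k :=
  Block.lift k 103 103 [0, 1, 2, 4, 7, 8, 9, 13, 14, 15, 16, 17, 18, 19, 23, 25, 26, 28, 29, 30, 32, 33, 34, 36, 38, 41, 46, 49, 50, 52, 55, 56, 58, 59, 60, 61, 63, 64, 66, 68, 72, 76, 79, 81, 82, 83, 91, 92, 93, 97, 98, 100] [36, 74, 24, 61, 101, 66, 6, 70, 15, 11, 44]
    (fun x => ([3, 10, 8, 7, 0, 4, 2, 9, 5, 1, 6] : List ℕ).getD (([36, 74, 24, 61, 101, 66, 6, 70, 15, 11, 44] : List ℕ).idxOf x) 0) 11 (by norm_num) (by norm_num) (by norm_num)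
    (dvd_pow_self _ (by omega))
    (root_of_squarefree (show Nat.Prime 103 by norm_num).prime.squarefree (by omega))
    (mem_of_dvd (by norm_num) h2 _ (by decide +kernel)) (by decide +kernel) (by decide +kernel)

lemma card_blockTwo103 (k : ℕ) (h2 : 2 ∣ k) (h4 : 4 ≤ k) : (blockTwo103 k h2 h4).R.card * 103 = 11 * 103 ^ k := by
  unfold blockTwo103
  rw [Block.lift_card, show ([36, 74, 24, 61, 101, 66, 6, 70, 15, 11, 44] : List ℕ).toFinset.card = 11 by decide +kernel]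

def blockTwo115 (k : ℕ) (h2 : 2 ∣ k) (h4 : 4 ≤ k) : Block k :=
  Block.lift k 115 115 [0, 1, 4, 6, 9, 16, 24, 25, 26, 29, 31, 35, 36, 39, 41, 46, 49, 50, 54, 55, 59, 64, 69, 70, 71, 75, 81, 85, 94, 95, 96, 100, 101, 104, 105, 110] [101, 44, 64, 43, 80, 93, 51, 30, 62, 95, 52, 68]
    (fun x => ([4, 2, 0, 1, 5, 5, 2, 3, 0, 1, 3, 4] : List ℕ).getD (([101, 44, 64, 43, 80, 93, 51, 30, 62, 95, 52, 68] : List ℕ).idxOf x) 0) 6 (by norm_num) (by norm_num) (by norm_num)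
    (dvd_pow_self _ (by omega))
    (root_of_squarefree (show Squarefree (5 * 23) from (Nat.squarefree_mul (show Nat.Coprime 5 23 by decide)).mpr ⟨(show Nat.Prime 5 by norm_num).prime.squarefree, (show Nat.Prime 23 by norm_num).prime.squarefree⟩) (by omega))
    (mem_of_dvd (by norm_num) h2 _ (by decide +kernel)) (by decide +kernel) (by decide +kernel)

lemma card_blockTwo115 (k : ℕ) (h2 : 2 ∣ k) (h4 : 4 ≤ k) : (blockTwo115 k h2 h4).R.card * 115 = 12 * 115 ^ k := by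
  unfold blockTwo115
  rw [Block.lift_card, show ([101, 44, 64, 43, 80, 93, 51, 30, 62, 95, 52, 68] : List ℕ).toFinset.card = 12 by decide +kernel]

def blockTwo8 (k : ℕ) (h2 : 2 ∣ k) (h4 : 4 ≤ k) : Block k :=
  Block.lift k 2 8 [0, 1] [0, 1, 2, 3, 4, 5, 6]
    (fun x => ([0, 1, 2, 3, 4, 5, 6] : List ℕ).getD (([0, 1, 2, 3, 4, 5, 6] : List ℕ).idxOf x) 0) 7 (by norm_num) (by norm_num) (by norm_num)
    (show 8 ∣ 2 ^ k from (show 8 = 2 ^ 3 by norm_num) ▸ pow_dvd_pow 2 (by omega))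
    (fun z hz => (Int.prime_two).dvd_of_dvd_pow (dvd_trans (by norm_num) hz))
    (pow_mod_eight h4 h2) (by decide +kernel) (by decide +kernel)

lemma card_blockTwo8 (k : ℕ) (h2 : 2 ∣ k) (h4 : 4 ≤ k) : (blockTwo8 k h2 h4).R.card * 8 = 7 * 2 ^ k := by
  unfold blockTwo8
  rw [Block.lift_card, show ([0, 1, 2, 3, 4, 5, 6] : List ℕ).toFinset.card = 7 by decide +kernel]

def blocksTwo (k : ℕ) (h2 : 2 ∣ k) (h4 : 4 ≤ k) : Fin 13 → Block k :=
  ![blockTwo3 k h2 h4, blockTwo7 k h2 h4, blockTwo11 k h2 h4, blockTwo19 k h2 h4, blockTwo31 k h2 h4, blockTwo43 k h2 h4, blockTwo47 k h2 h4, blockTwo59 k h2 h4, blockTwo71 k h2 h4, blockTwo79 k h2 h4, blockTwo103 k h2 h4, blockTwo115 k h2 h4, blockTwo8 k h2 h4]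

def baseTwo : Fin 13 → ℕ := ![3, 7, 11, 19, 31, 43, 47, 59, 71, 79, 103, 115, 2]

def chkTwo : Fin 13 → ℕ := ![3, 7, 11, 19, 31, 43, 47, 59, 71, 79, 103, 115, 8]

def sizeTwo : Fin 13 → ℕ := ![2, 3, 4, 5, 7, 7, 7, 9, 9, 9, 11, 12, 7]

def heightTwo : Fin 13 → ℕ := ![2, 3, 4, 5, 7, 7, 7, 9, 9, 9, 11, 6, 7]

def levelsTwo : Fin 13 → ℕ := ![57, 36, 28, 24, 20, 20, 20, 18, 18, 18, 16, 22, 20]

lemma specTwo (k : ℕ) (h2 : 2 ∣ k) (h4 : 4 ≤ k) (i : Fin 13) :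
    (blocksTwo k h2 h4 i).s = baseTwo i ∧ (blocksTwo k h2 h4 i).H = heightTwo i ∧
    (blocksTwo k h2 h4 i).R.card * chkTwo i = sizeTwo i * (baseTwo i) ^ k := by
  fin_cases i
  · exact ⟨rfl, rfl, card_blockTwo3 k h2 h4⟩
  · exact ⟨rfl, rfl, card_blockTwo7 k h2 h4⟩
  · exact ⟨rfl, rfl, card_blockTwo11 k h2 h4⟩
  · exact ⟨rfl, rfl, card_blockTwo19 k h2 h4⟩
  · exact ⟨rfl, rfl, card_blockTwo31 k h2 h4⟩
  · exact ⟨rfl, rfl, card_blockTwo43 k h2 h4⟩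
  · exact ⟨rfl, rfl, card_blockTwo47 k h2 h4⟩
  · exact ⟨rfl, rfl, card_blockTwo59 k h2 h4⟩
  · exact ⟨rfl, rfl, card_blockTwo71 k h2 h4⟩
  · exact ⟨rfl, rfl, card_blockTwo79 k h2 h4⟩
  · exact ⟨rfl, rfl, card_blockTwo103 k h2 h4⟩
  · exact ⟨rfl, rfl, card_blockTwo115 k h2 h4⟩
  · exact ⟨rfl, rfl, card_blockTwo8 k h2 h4⟩

def blockFour5 (k : ℕ) (h2 : 4 ∣ k) (h4 : 4 ≤ k) : Block k :=
  Block.lift k 5 5 [0, 1] [1, 0, 3, 4]
    (fun x => ([3, 2, 0, 1] : List ℕ).getD (([1, 0, 3, 4] : List ℕ).idxOf x) 0) 4 (by norm_num) (by norm_num) (by norm_num)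
    (dvd_pow_self _ (by omega))
    (root_of_squarefree (show Nat.Prime 5 by norm_num).prime.squarefree (by omega))
    (mem_of_dvd (by norm_num) h2 _ (by decide +kernel)) (by decide +kernel) (by decide +kernel)

lemma card_blockFour5 (k : ℕ) (h2 : 4 ∣ k) (h4 : 4 ≤ k) : (blockFour5 k h2 h4).R.card * 5 = 4 * 5 ^ k := by
  unfold blockFour5
  rw [Block.lift_card, show ([1, 0, 3, 4] : List ℕ).toFinset.card = 4 by decide +kernel]

def blockFour13 (k : ℕ) (h2 : 4 ∣ k) (h4 : 4 ≤ k) : Block k :=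
  Block.lift k 13 13 [0, 1, 3, 9] [12, 11, 6, 5, 3, 4, 10]
    (fun x => ([2, 1, 3, 2, 0, 1, 0] : List ℕ).getD (([12, 11, 6, 5, 3, 4, 10] : List ℕ).idxOf x) 0) 4 (by norm_num) (by norm_num) (by norm_num)
    (dvd_pow_self _ (by omega))
    (root_of_squarefree (show Nat.Prime 13 by norm_num).prime.squarefree (by omega))
    (mem_of_dvd (by norm_num) h2 _ (by decide +kernel)) (by decide +kernel) (by decide +kernel)

lemma card_blockFour13 (k : ℕ) (h2 : 4 ∣ k) (h4 : 4 ≤ k) : (blockFour13 k h2 h4).R.card * 13 = 7 * 13 ^ k := by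
  unfold blockFour13
  rw [Block.lift_card, show ([12, 11, 6, 5, 3, 4, 10] : List ℕ).toFinset.card = 7 by decide +kernel]

def blockFour29 (k : ℕ) (h2 : 4 ∣ k) (h4 : 4 ≤ k) : Block k :=
  Block.lift k 29 29 [0, 1, 7, 16, 20, 23, 24, 25] [11, 0, 2, 20, 14, 28, 13, 19, 15, 1, 10, 16]
    (fun x => ([9, 3, 10, 4, 5, 0, 2, 1, 6, 9, 8, 7] : List ℕ).getD (([11, 0, 2, 20, 14, 28, 13, 19, 15, 1, 10, 16] : List ℕ).idxOf x) 0) 11 (by norm_num) (by norm_num) (by norm_num)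
    (dvd_pow_self _ (by omega))
    (root_of_squarefree (show Nat.Prime 29 by norm_num).prime.squarefree (by omega))
    (mem_of_dvd (by norm_num) h2 _ (by decide +kernel)) (by decide +kernel) (by decide +kernel)

lemma card_blockFour29 (k : ℕ) (h2 : 4 ∣ k) (h4 : 4 ≤ k) : (blockFour29 k h2 h4).R.card * 29 = 12 * 29 ^ k := by
  unfold blockFour29
  rw [Block.lift_card, show ([11, 0, 2, 20, 14, 28, 13, 19, 15, 1, 10, 16] : List ℕ).toFinset.card = 12 by decide +kernel]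

def blockFour37 (k : ℕ) (h2 : 4 ∣ k) (h4 : 4 ≤ k) : Block k :=
  Block.lift k 37 37 [0, 1, 7, 9, 10, 12, 16, 26, 33, 34] [16, 33, 21, 35, 29, 8, 6, 13, 19, 0, 27, 11, 31]
    (fun x => ([7, 5, 1, 1, 9, 10, 6, 8, 0, 4, 3, 0, 2] : List ℕ).getD (([16, 33, 21, 35, 29, 8, 6, 13, 19, 0, 27, 11, 31] : List ℕ).idxOf x) 0) 11 (by norm_num) (by norm_num) (by norm_num)
    (dvd_pow_self _ (by omega))
    (root_of_squarefree (show Nat.Prime 37 by norm_num).prime.squarefree (by omega))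
    (mem_of_dvd (by norm_num) h2 _ (by decide +kernel)) (by decide +kernel) (by decide +kernel)

lemma card_blockFour37 (k : ℕ) (h2 : 4 ∣ k) (h4 : 4 ≤ k) : (blockFour37 k h2 h4).R.card * 37 = 13 * 37 ^ k := by
  unfold blockFour37
  rw [Block.lift_card, show ([16, 33, 21, 35, 29, 8, 6, 13, 19, 0, 27, 11, 31] : List ℕ).toFinset.card = 13 by decide +kernel]

def blockFour51 (k : ℕ) (h2 : 4 ∣ k) (h4 : 4 ≤ k) : Block k :=
  Block.lift k 51 51 [0, 1, 4, 13, 16, 18, 21, 30, 33, 34] [38, 13, 41, 6, 19, 35, 9, 10, 3, 45, 25, 32, 29, 22, 48, 16]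
    (fun x => ([5, 10, 2, 3, 7, 8, 0, 13, 6, 12, 1, 8, 11, 4, 9, 7] : List ℕ).getD (([38, 13, 41, 6, 19, 35, 9, 10, 3, 45, 25, 32, 29, 22, 48, 16] : List ℕ).idxOf x) 0) 14 (by norm_num) (by norm_num) (by norm_num)
    (dvd_pow_self _ (by omega))
    (root_of_squarefree (show Squarefree (3 * 17) from (Nat.squarefree_mul (show Nat.Coprime 3 17 by decide)).mpr ⟨(show Nat.Prime 3 by norm_num).prime.squarefree, (show Nat.Prime 17 by norm_num).prime.squarefree⟩) (by omega))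
    (mem_of_dvd (by norm_num) h2 _ (by decide +kernel)) (by decide +kernel) (by decide +kernel)

lemma card_blockFour51 (k : ℕ) (h2 : 4 ∣ k) (h4 : 4 ≤ k) : (blockFour51 k h2 h4).R.card * 51 = 16 * 51 ^ k := by
  unfold blockFour51
  rw [Block.lift_card, show ([38, 13, 41, 6, 19, 35, 9, 10, 3, 45, 25, 32, 29, 22, 48, 16] : List ℕ).toFinset.card = 16 by decide +kernel]

def blockFour53 (k : ℕ) (h2 : 4 ∣ k) (h4 : 4 ≤ k) : Block k :=
  Block.lift k 53 53 [0, 1, 10, 13, 15, 16, 24, 28, 36, 42, 44, 46, 47, 49] [11, 30, 23, 41, 49, 44, 29, 28, 8, 22, 42, 24, 10, 9, 50, 43]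
    (fun x => ([5, 5, 6, 4, 0, 7, 1, 0, 0, 2, 5, 7, 4, 1, 3, 6] : List ℕ).getD (([11, 30, 23, 41, 49, 44, 29, 28, 8, 22, 42, 24, 10, 9, 50, 43] : List ℕ).idxOf x) 0) 8 (by norm_num) (by norm_num) (by norm_num)
    (dvd_pow_self _ (by omega))
    (root_of_squarefree (show Nat.Prime 53 by norm_num).prime.squarefree (by omega))
    (mem_of_dvd (by norm_num) h2 _ (by decide +kernel)) (by decide +kernel) (by decide +kernel)

lemma card_blockFour53 (k : ℕ) (h2 : 4 ∣ k) (h4 : 4 ≤ k) : (blockFour53 k h2 h4).R.card * 53 = 16 * 53 ^ k := by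
  unfold blockFour53
  rw [Block.lift_card, show ([11, 30, 23, 41, 49, 44, 29, 28, 8, 22, 42, 24, 10, 9, 50, 43] : List ℕ).toFinset.card = 16 by decide +kernel]

def blockFour61 (k : ℕ) (h2 : 4 ∣ k) (h4 : 4 ≤ k) : Block k :=
  Block.lift k 61 61 [0, 1, 9, 12, 13, 15, 16, 20, 22, 25, 34, 42, 47, 56, 57, 58] [40, 3, 5, 53, 42, 11, 44, 22, 33, 12, 1, 55, 31, 51, 23, 29]
    (fun x => ([4, 7, 7, 5, 3, 0, 3, 0, 1, 8, 8, 5, 1, 6, 9, 2] : List ℕ).getD (([40, 3, 5, 53, 42, 11, 44, 22, 33, 12, 1, 55, 31, 51, 23, 29] : List ℕ).idxOf x) 0) 10 (by norm_num) (by norm_num) (by norm_num)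
    (dvd_pow_self _ (by omega))
    (root_of_squarefree (show Nat.Prime 61 by norm_num).prime.squarefree (by omega))
    (mem_of_dvd (by norm_num) h2 _ (by decide +kernel)) (by decide +kernel) (by decide +kernel)

lemma card_blockFour61 (k : ℕ) (h2 : 4 ∣ k) (h4 : 4 ≤ k) : (blockFour61 k h2 h4).R.card * 61 = 16 * 61 ^ k := by
  unfold blockFour61
  rw [Block.lift_card, show ([40, 3, 5, 53, 42, 11, 44, 22, 33, 12, 1, 55, 31, 51, 23, 29] : List ℕ).toFinset.card = 16 by decide +kernel]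

def blockFour101 (k : ℕ) (h2 : 4 ∣ k) (h4 : 4 ≤ k) : Block k :=
  Block.lift k 101 101 [0, 1, 5, 16, 19, 24, 25, 31, 36, 37, 52, 54, 56, 58, 68, 71, 78, 79, 80, 81, 84, 87, 88, 92, 95, 97] [49, 57, 12, 22, 81, 25, 92, 85, 53, 50, 10, 93, 83, 51, 84, 95, 23, 54, 96, 19]
    (fun x => ([7, 0, 2, 5, 10, 1, 4, 9, 6, 9, 9, 6, 5, 11, 7, 0, 7, 8, 3, 8] : List ℕ).getD (([49, 57, 12, 22, 81, 25, 92, 85, 53, 50, 10, 93, 83, 51, 84, 95, 23, 54, 96, 19] : List ℕ).idxOf x) 0) 12 (by norm_num) (by norm_num) (by norm_num)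
    (dvd_pow_self _ (by omega))
    (root_of_squarefree (show Nat.Prime 101 by norm_num).prime.squarefree (by omega))
    (mem_of_dvd (by norm_num) h2 _ (by decide +kernel)) (by decide +kernel) (by decide +kernel)

lemma card_blockFour101 (k : ℕ) (h2 : 4 ∣ k) (h4 : 4 ≤ k) : (blockFour101 k h2 h4).R.card * 101 = 20 * 101 ^ k := by
  unfold blockFour101
  rw [Block.lift_card, show ([49, 57, 12, 22, 81, 25, 92, 85, 53, 50, 10, 93, 83, 51, 84, 95, 23, 54, 96, 19] : List ℕ).toFinset.card = 20 by decide +kernel]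

def blockFour109 (k : ℕ) (h2 : 4 ∣ k) (h4 : 4 ≤ k) : Block k :=
  Block.lift k 109 109 [0, 1, 3, 5, 7, 9, 15, 16, 21, 22, 25, 26, 27, 35, 38, 45, 48, 49, 63, 66, 73, 75, 78, 80, 81, 89, 97, 105] [46, 4, 76, 64, 62, 94, 36, 86, 54, 2, 104, 96, 35, 52, 22, 44, 14, 105, 106, 72, 12]
    (fun x => ([3, 5, 2, 3, 6, 5, 5, 4, 0, 7, 0, 0, 4, 6, 5, 6, 1, 1, 2, 4, 6] : List ℕ).getD (([46, 4, 76, 64, 62, 94, 36, 86, 54, 2, 104, 96, 35, 52, 22, 44, 14, 105, 106, 72, 12] : List ℕ).idxOf x) 0) 8 (by norm_num) (by norm_num) (by norm_num)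
    (dvd_pow_self _ (by omega))
    (root_of_squarefree (show Nat.Prime 109 by norm_num).prime.squarefree (by omega))
    (mem_of_dvd (by norm_num) h2 _ (by decide +kernel)) (by decide +kernel) (by decide +kernel)

lemma card_blockFour109 (k : ℕ) (h2 : 4 ∣ k) (h4 : 4 ≤ k) : (blockFour109 k h2 h4).R.card * 109 = 21 * 109 ^ k := by
  unfold blockFour109
  rw [Block.lift_card, show ([46, 4, 76, 64, 62, 94, 36, 86, 54, 2, 104, 96, 35, 52, 22, 44, 14, 105, 106, 72, 12] : List ℕ).toFinset.card = 21 by decide +kernel]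

def blockFour16 (k : ℕ) (h2 : 4 ∣ k) (h4 : 4 ≤ k) : Block k :=
  Block.lift k 2 16 [0, 1] [0, 1, 2, 3, 4, 5, 6, 7, 8, 9, 10, 11, 12, 13, 14]
    (fun x => ([0, 1, 2, 3, 4, 5, 6, 7, 8, 9, 10, 11, 12, 13, 14] : List ℕ).getD (([0, 1, 2, 3, 4, 5, 6, 7, 8, 9, 10, 11, 12, 13, 14] : List ℕ).idxOf x) 0) 15 (by norm_num) (by norm_num) (by norm_num)
    (show 16 ∣ 2 ^ k from (show 16 = 2 ^ 4 by norm_num) ▸ pow_dvd_pow 2 (by omega))
    (fun z hz => (Int.prime_two).dvd_of_dvd_pow (dvd_trans (by norm_num) hz))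
    (mem_of_dvd (by norm_num) h2 _ (by decide +kernel)) (by decide +kernel) (by decide +kernel)

lemma card_blockFour16 (k : ℕ) (h2 : 4 ∣ k) (h4 : 4 ≤ k) : (blockFour16 k h2 h4).R.card * 16 = 15 * 2 ^ k := by
  unfold blockFour16
  rw [Block.lift_card, show ([0, 1, 2, 3, 4, 5, 6, 7, 8, 9, 10, 11, 12, 13, 14] : List ℕ).toFinset.card = 15 by decide +kernel]

def blocksFour (k : ℕ) (h2 : 4 ∣ k) (h4 : 4 ≤ k) : Fin 10 → Block k :=
  ![blockFour5 k h2 h4, blockFour13 k h2 h4, blockFour29 k h2 h4, blockFour37 k h2 h4, blockFour51 k h2 h4, blockFour53 k h2 h4, blockFour61 k h2 h4, blockFour101 k h2 h4, blockFour109 k h2 h4, blockFour16 k h2 h4]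

def baseFour : Fin 10 → ℕ := ![5, 13, 29, 37, 51, 53, 61, 101, 109, 2]

def chkFour : Fin 10 → ℕ := ![5, 13, 29, 37, 51, 53, 61, 101, 109, 16]

def sizeFour : Fin 10 → ℕ := ![4, 7, 12, 13, 16, 16, 16, 20, 21, 15]

def heightFour : Fin 10 → ℕ := ![4, 4, 11, 11, 14, 8, 10, 12, 8, 15]

def levelsFour : Fin 10 → ℕ := ![29, 29, 17, 17, 15, 19, 17, 16, 19, 15]

lemma specFour (k : ℕ) (h2 : 4 ∣ k) (h4 : 4 ≤ k) (i : Fin 10) :
    (blocksFour k h2 h4 i).s = baseFour i ∧ (blocksFour k h2 h4 i).H = heightFour i ∧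
    (blocksFour k h2 h4 i).R.card * chkFour i = sizeFour i * (baseFour i) ^ k := by
  fin_cases i
  · exact ⟨rfl, rfl, card_blockFour5 k h2 h4⟩
  · exact ⟨rfl, rfl, card_blockFour13 k h2 h4⟩
  · exact ⟨rfl, rfl, card_blockFour29 k h2 h4⟩
  · exact ⟨rfl, rfl, card_blockFour37 k h2 h4⟩
  · exact ⟨rfl, rfl, card_blockFour51 k h2 h4⟩
  · exact ⟨rfl, rfl, card_blockFour53 k h2 h4⟩
  · exact ⟨rfl, rfl, card_blockFour61 k h2 h4⟩
  · exact ⟨rfl, rfl, card_blockFour101 k h2 h4⟩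
  · exact ⟨rfl, rfl, card_blockFour109 k h2 h4⟩
  · exact ⟨rfl, rfl, card_blockFour16 k h2 h4⟩

end Vale.Agent.P042Pow
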