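import Vale.Agent.P042Pow.Amplify
import Vale.Agent.P042Pow.Data

/-! One inequality between block parameters gives the exponent for every admissible `k`. -/

open Finset

namespace Vale.Agent.P042Pow

theorem exponent_bound {n : ℕ} [NeZero n] {k : ℕ} (hk : k ≠ 0) (B : Fin n → Block k)
    (s m r H L : Fin n → ℕ) (a b : ℕ)
    (hspec : ∀ i, (B i).s = s i ∧ (B i).H = H i ∧ (B i).R.card * m i = r i * s i ^ k)
    (hcop : ∀ i j, i ≠ j → Nat.Coprime (s i) (s j))
    (hm : ∀ i, 0 < m i) (hs : ∀ i, 0 < s i)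
    (hbase : 1 < univ.sup fun i => H i ^ L i)
    (hcert : ((univ.sup fun i => H i ^ L i) * ∏ i, m i ^ L i) ^ b ≤
      (∏ i, r i ^ L i) ^ b * (∏ i, s i ^ L i) ^ a)
    (hab : a < b * k) :
    ∃ c : ℝ, 0 < c ∧ ∀ N : ℕ, ∃ A : Finset ℕ, A ⊆ Finset.Icc 1 N ∧
      c * (N : ℝ) ^ (1 - (a : ℝ) / ((b : ℝ) * k)) ≤ (A.card : ℝ) ∧
      ∀ x ∈ A, ∀ y ∈ A, ∀ t : ℕ, 1 ≤ t → ((x : ℤ) - (y : ℤ)) ≠ (t : ℤ) ^ k := by
  have hH : ∀ i, (B i).H = H i := fun i => (hspec i).2.1
  have hM : ∀ i, (B i).M ^ L i = (s i ^ L i) ^ k := fun i => by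
    rw [Block.M, (hspec i).1, ← pow_mul, ← pow_mul, mul_comm]
  have hN : ∏ i, (B i).M ^ L i = (∏ i, s i ^ L i) ^ k := by
    rw [← Finset.prod_pow]
    exact Finset.prod_congr rfl fun i _ => hM i
  have hG : (∏ i, (B i).R.card ^ L i) * ∏ i, m i ^ L i
      = (∏ i, r i ^ L i) * (∏ i, s i ^ L i) ^ k := by
    rw [← Finset.prod_pow, ← Finset.prod_mul_distrib, ← Finset.prod_mul_distrib]
    refine Finset.prod_congr rfl fun i _ => ?_
    rw [← mul_pow, (hspec i).2.2, mul_pow, ← pow_mul, ← pow_mul, mul_comm k]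
  have hT : (univ.sup fun i => (B i).H ^ L i) = univ.sup fun i => H i ^ L i :=
    Finset.sup_congr rfl fun i _ => by rw [hH]
  have hQpos : 0 < ∏ i, s i ^ L i := Finset.prod_pos fun i _ => pow_pos (hs i) _
  have hmpos : 0 < ∏ i, m i ^ L i := Finset.prod_pos fun i _ => pow_pos (hm i) _
  have hcop' : ∀ i j, i ≠ j → Nat.Coprime (B i).M (B j).M := fun i j hij => by
    rw [Block.M, Block.M, (hspec i).1, (hspec j).1]
    exact Nat.Coprime.pow k k (hcop i j hij)
  have hbk : b * k ≠ 0 := by omega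
  have hbkR : (0 : ℝ) < (b : ℝ) * k := by exact_mod_cast Nat.pos_of_ne_zero hbk
  refine bound_of_blocks hk B L (b * k - a) (b * k) hbk hcop' ?_ ?_ _ ?_ ?_
  · rw [hT, hN]
    exact lt_of_lt_of_le hbase (Nat.le_mul_of_pos_right _ (pow_pos hQpos k))
  · rw [hT, hN]
    generalize hQ : ∏ i, s i ^ L i = Q at hcert hG hQpos
    generalize hMP : ∏ i, m i ^ L i = MP at hcert hG hmpos
    generalize hRP : ∏ i, r i ^ L i = RP at hcert hG
    generalize hGP : ∏ i, (B i).R.card ^ L i = GP at hG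
    generalize hTT : (univ.sup fun i => H i ^ L i) = T at hcert hbase
    refine Nat.le_of_mul_le_mul_right ?_ (pow_pos hmpos (b * k))
    rw [← mul_pow, hG]
    obtain ⟨e, he⟩ : ∃ e, b * k = e + a := ⟨b * k - a, by omega⟩
    rw [show b * k - a = e by omega]
    have h1 := Nat.pow_le_pow_left hcert k
    calc (T * Q ^ k) ^ e * MP ^ (b * k)
        = T ^ e * MP ^ (b * k) * Q ^ (k * e) := by rw [mul_pow, ← pow_mul]; ring
      _ ≤ T ^ (b * k) * MP ^ (b * k) * Q ^ (k * e) :=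
          Nat.mul_le_mul_right _ (Nat.mul_le_mul_right _
            (Nat.pow_le_pow_right (by omega) (by omega)))
      _ = ((T * MP) ^ b) ^ k * Q ^ (k * e) := by rw [← pow_mul, mul_pow]
      _ ≤ (RP ^ b * Q ^ a) ^ k * Q ^ (k * e) := Nat.mul_le_mul_right _ h1
      _ = (RP * Q ^ k) ^ (b * k) := by
          rw [mul_pow, mul_pow, ← pow_mul, ← pow_mul, ← pow_mul, mul_assoc, ← pow_add]
          congr 2
          rw [he]
          ring
  · have : (a : ℝ) < (b : ℝ) * k := by exact_mod_cast hab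
    have := (div_lt_one hbkR).mpr this
    linarith
  · rw [Nat.cast_sub hab.le]
    push_cast
    rw [le_div_iff₀ hbkR, sub_mul, one_mul, div_mul_cancel₀ _ hbkR.ne']

end Vale.Agent.P042Pow
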