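import Vale.Agent.P042Pow.Core

/-! Constructors of k-th power residue blocks from finite checks. -/

open Finset

namespace Vale.Agent.P042Pow

lemma finite_check {m : ℕ} (hm : 0 < m) (d : ℕ) (P R0 : List ℕ) (f : ℕ → ℕ)
    (hP : ∀ z ∈ List.range m, z ^ d % m ∈ P)
    (hlt : ∀ x ∈ R0, x < m)
    (h : ∀ x ∈ R0, ∀ y ∈ R0, x ≠ y → f y ≤ f x → (y + m - x) % m ∉ P)
    {x y : ℕ} (hx : x ∈ R0) (hy : y ∈ R0) (hne : x ≠ y) (z : ℤ)
    (hz : (m : ℤ) ∣ z ^ d - ((y : ℤ) - x)) : f x < f y := by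
  by_contra hcon
  push Not at hcon
  have hm' : (m : ℤ) ≠ 0 := by positivity
  set r := (z % (m : ℤ)).toNat with hr
  have hrz : (r : ℤ) = z % m := Int.toNat_of_nonneg (Int.emod_nonneg _ hm')
  have hrlt : r < m := by
    have := Int.emod_lt_of_pos z (b := (m : ℤ)) (by exact_mod_cast hm)
    omega
  refine h x hx y hy hne hcon ?_
  have hxm : x ≤ y + m := le_trans (hlt x hx).le (Nat.le_add_left _ _)
  have e : (y + m - x) % m = r ^ d % m := by
    show y + m - x ≡ r ^ d [MOD m]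
    rw [← ZMod.natCast_eq_natCast_iff, Nat.cast_sub hxm]
    have h1 : ((z : ℤ) : ZMod m) = (r : ZMod m) := by
      rw [show (r : ZMod m) = ((r : ℤ) : ZMod m) by simp, hrz, ZMod.intCast_mod]
    have h2 := (ZMod.intCast_zmod_eq_zero_iff_dvd _ m).mpr hz
    push_cast at h2 ⊢
    rw [h1] at h2
    rw [ZMod.natCast_self]
    linear_combination -h2
  rw [e]
  exact hP r (List.mem_range.mpr hrlt)

/-- The lift to modulus `s ^ k` of a list of residues modulo `m`, checked against the set `P` of `k`-th powers. -/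
def Block.lift (k s m : ℕ) (P R0 : List ℕ) (f : ℕ → ℕ) (H : ℕ) (hs : 0 < s) (hm : 0 < m)
    (hH : 0 < H) (hms : m ∣ s ^ k)
    (hroot : ∀ z : ℤ, (m : ℤ) ∣ z ^ k → (s : ℤ) ∣ z)
    (hP : ∀ z ∈ List.range m, z ^ k % m ∈ P)
    (hlt : ∀ x ∈ R0, x < m ∧ f x < H)
    (h : ∀ x ∈ R0, ∀ y ∈ R0, x ≠ y → f y ≤ f x → (y + m - x) % m ∉ P) : Block k where
  s := s
  R := (range (s ^ k)).filter fun x => x % m ∈ R0
  f x := f (x % m)
  H := H
  s_pos := hs
  H_pos := hH
  R_lt x hx := mem_range.mp (mem_filter.mp hx).1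
  f_lt x hx := (hlt _ (mem_filter.mp hx).2).2
  incr x hx y hy hne z hz := by
    simp only [mem_filter, mem_range] at hx hy
    have hmsZ : (m : ℤ) ∣ (s : ℤ) ^ k := by exact_mod_cast hms
    have hzm : (m : ℤ) ∣ z ^ k - ((y : ℤ) - x) := hmsZ.trans hz
    by_cases hmod : x % m = y % m
    · exfalso
      have h1 : (m : ℤ) ∣ (y : ℤ) - x := (Nat.modEq_iff_dvd (n := m)).mp hmod
      have h2 : (m : ℤ) ∣ z ^ k := by
        have := dvd_add hzm h1
        simpa using this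
      have h3 : (s : ℤ) ^ k ∣ z ^ k := pow_dvd_pow_of_dvd (hroot z h2) k
      have h4 : ((s ^ k : ℕ) : ℤ) ∣ (y : ℤ) - x := by
        have := dvd_sub h3 hz
        push_cast
        simpa using this
      exact hne (Nat.ModEq.eq_of_lt_of_lt (Nat.modEq_iff_dvd.mpr h4) hx.1 hy.1)
    · refine finite_check hm k P R0 f hP (fun a ha => (hlt a ha).1) h hx.2 hy.2 hmod z ?_
      push_cast
      have e1 : (m : ℤ) ∣ ((y : ℤ) - x) - ((y : ℤ) % m - (x : ℤ) % m) :=
        ⟨(y : ℤ) / m - (x : ℤ) / m, by rw [Int.emod_def, Int.emod_def]; ring⟩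
      have := dvd_add hzm e1
      ring_nf at this ⊢
      exact this

lemma mem_of_dvd {m d k : ℕ} (hm : 0 < m) (hdk : d ∣ k) (P : List ℕ)
    (hP : ∀ z ∈ List.range m, z ^ d % m ∈ P) : ∀ z ∈ List.range m, z ^ k % m ∈ P := by
  intro z _
  obtain ⟨j, rfl⟩ := hdk
  rw [mul_comm d j, pow_mul, Nat.pow_mod]
  exact hP _ (List.mem_range.mpr (Nat.mod_lt _ hm))

lemma root_of_squarefree {s k : ℕ} (hs : Squarefree s) (hk : k ≠ 0) :
    ∀ z : ℤ, (s : ℤ) ∣ z ^ k → (s : ℤ) ∣ z :=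
  fun _ h => ((Int.squarefree_natCast.mpr hs).dvd_pow_iff_dvd hk).mp h

lemma Block.lift_card (k s m : ℕ) (P R0 : List ℕ) (f : ℕ → ℕ) (H : ℕ)
    (hs hm hH) (hms : m ∣ s ^ k) (hroot hP hlt h) :
    (Block.lift k s m P R0 f H hs hm hH hms hroot hP hlt h).R.card * m
      = R0.toFinset.card * s ^ k := by
  obtain ⟨q, hq⟩ := hms
  show ((range (s ^ k)).filter fun x => x % m ∈ R0).card * m = _
  rw [hq]
  suffices e : ((range (m * q)).filter fun x => x % m ∈ R0).card = q * R0.toFinset.card by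
    rw [e]; ring
  rw [show q * R0.toFinset.card = (range q ×ˢ R0.toFinset).card by simp]
  symm
  refine card_nbij' (fun p => p.2 + m * p.1) (fun x => (x / m, x % m)) ?_ ?_ ?_ ?_
  · rintro ⟨a, r⟩ hp
    simp only [coe_product, Set.mem_prod, mem_coe, mem_range, List.mem_toFinset] at hp
    have hr : r < m := (hlt r hp.2).1
    simp only [mem_coe, mem_filter, mem_range, Nat.add_mul_mod_self_left, Nat.mod_eq_of_lt hr]
    refine ⟨?_, hp.2⟩
    have := Nat.mul_le_mul_left m hp.1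
    linarith [Nat.mul_succ m a]
  · intro x hx
    simp only [mem_coe, mem_filter, mem_range] at hx
    simp only [coe_product, Set.mem_prod, mem_coe, mem_range, List.mem_toFinset]
    exact ⟨Nat.div_lt_of_lt_mul hx.1, hx.2⟩
  · rintro ⟨a, r⟩ hp
    simp only [coe_product, Set.mem_prod, mem_coe, mem_range, List.mem_toFinset] at hp
    have hr : r < m := (hlt r hp.2).1
    simp [Nat.add_mul_mod_self_left, Nat.mod_eq_of_lt hr, Nat.add_mul_div_left, hm,
      Nat.div_eq_of_lt hr]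
  · intro x _
    exact Nat.mod_add_div x m

end Vale.Agent.P042Pow
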